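import Vale.Agent.P287Q.G.Br.Cls

/-!
# The target of the statement and the target of the proof; the Hodge theoretic input
-/

set_option linter.unusedSectionVars false

namespace Vale.Agent.P269

open P291Z Set Function Topology Filter MvPolynomial Fock

variable {R J K : Type} [Fintype R] [Fintype J] [Fintype K]

namespace Tgt

variable (T : Tgt R J K) (χ : K → R → ℤ)

theorem fam_F (l : Empty → ℂ) : ((T.fam χ).fib l).F = T.F := funext fun k => by
  change MvPolynomial.map (eval l) (MvPolynomial.map C (T.F k)) = T.F k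
  rw [MvPolynomial.map_map]
  exact (congrArg (MvPolynomial.map · _) (RingHom.ext fun _ => eval_C _)).trans
    (MvPolynomial.map_id _)

theorem fam_fib (l : Empty → ℂ) : (T.fam χ).fib l = T := by
  have h := T.fam_F χ l
  obtain ⟨w, U, F, θ⟩ := T
  exact congrArg₂ (Tgt.mk w · · θ)
    (Set.ext fun _ => ⟨fun h => h.1, fun h => ⟨h, trivial, fun _ h => h.elim⟩⟩) h

variable {T χ} in
theorem mem_fam {z : (Empty → ℂ) × (J → ℂ)} : z ∈ (T.fam χ).cone ↔ z.2 ∈ T.cone := by
  change z.1 ∈ univ ∧ z.2 ∈ ((T.fam χ).fib z.1).cone ↔ _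
  rw [fam_fib]
  exact and_iff_right trivial

theorem fam_act (t : (Empty → ℂ) × (R → ℂ)) (z : (Empty → ℂ) × (J → ℂ)) :
    ((T.fam χ).actT t z).2 = T.act t.2 z.2 := funext fun j => by
  simp [Wt.actT, Tgt.fam, Tgt.act]

/-- The target of the family is the target. -/
noncomputable def xi : (T.fam χ).X (T.fam χ).cone ≃ₜ T.X where
  toFun := Quot.map (fun z => ⟨z.1.2, mem_fam.1 z.2⟩) fun x _ ⟨a, h1, h2⟩ =>
    ⟨a.2, (Prod.isUnit_iff.1 h1).2, (congrArg Prod.snd h2).trans (T.fam_act χ a x)⟩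
  invFun := Quot.map (fun y => ⟨(0, y.1), mem_fam.2 y.2⟩) fun x _ ⟨a, h1, h2⟩ =>
    ⟨(1, a), Prod.isUnit_iff.2 ⟨isUnit_one, h1⟩,
      Prod.ext (Subsingleton.elim _ _) (h2.trans (T.fam_act χ (1, a) (0, x)).symm)⟩
  left_inv := Quot.ind fun _ =>
    congrArg (Quot.mk _) (Subtype.ext (Prod.ext (Subsingleton.elim _ _) rfl))
  right_inv := Quot.ind fun _ => rfl
  continuous_toFun := continuous_quot_lift _ (continuous_quot_mk.comp
    ((continuous_snd.comp continuous_subtype_val).subtype_mk _))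
  continuous_invFun := continuous_quot_lift _ (continuous_quot_mk.comp
    ((continuous_const.prodMk continuous_subtype_val).subtype_mk _))

theorem xi_mk (z : (T.fam χ).cone) :
    T.xi χ (Quo.mk _ z) = Quo.mk T.act ⟨z.1.2, mem_fam.1 z.2⟩ := rfl

/-- Classes on the target as classes on the target of the family. -/
noncomputable def xiH : H T.X →ₐ[ℂ] H ((T.fam χ).X (T.fam χ).cone) := H.mapA (T.xi χ)

end Tgt

theorem ci_eq {N c : ℕ} (F : Fin c → MvPolynomial (Fin (N + 1)) ℂ) : ci F = ciK F := rfl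

/-- The identification of the cohomology of a complete intersection. -/
noncomputable def ciH {N c : ℕ} (F : Fin c → MvPolynomial (Fin (N + 1)) ℂ) (d : Fin c → ℕ) :
    H (ci F).X →ₐ[ℂ] H ((ciF F d).X (ciF F d).cone) := (ci F).xiH fun k _ => d k

namespace St

/-- The integral and the first Chern class of the statement. -/
def BrC : Prop :=
  ∀ (N c : ℕ) (d : Fin c → ℕ) (F : Fin c → MvPolynomial (Fin (N + 1)) ℂ), SmCI F d →
    (ci F).cone.Nonempty → (∀ a, (ciF F d).intX _ (ciH F d a) = (ci F).int a) ∧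
      ciH F d ((ci F).c1 (N - c)) = (ciF F d).c1 _

/-- The Hodge grading is admissible. -/
def BrH : Prop :=
  ∀ (N c : ℕ) (d : Fin c → ℕ) (F : Fin c → MvPolynomial (Fin (N + 1)) ℂ), SmCI F d →
    (ci F).cone.Nonempty →
    ∀ (B : ℕ) (φ : Module.Basis (Fin B) ℂ (H (ci F).X)) (p q : Fin B → ℕ),
      (∀ a, (ci F).IsHodge (p a) (q a) (φ a)) →
      ∃ (C : Deg.Coh) (i : C.H →ₗ[ℂ] H ((ciF F d).X (ciF F d).cone)) (vd : VD C.fr)
        (e : H (ci F).X ≃ₗ[ℂ] C.H), (ciF F d).Std C i vd ∧ Adm F d C i vd ∧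
        (∀ v, i (e v) = ciH F d v) ∧
        (∀ a, vd.μ (e (φ a)) = ((p a : ℂ) - (N - c : ℕ) / 2) • e (φ a)) ∧
        ∀ a b x, φ.repr (φ a * φ b) x ≠ 0 → p x = p a + p b

end St

end Vale.Agent.P269
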