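import Vale.Agent.P287Q.G.Br.Fund
import Vale.Agent.P269.Pt.Split
import Vale.Agent.P269.Gen.Act

/-!
# The class of an abstract map: continuity, invariance, additivity
-/

set_option linter.unusedSectionVars false

namespace Vale.Agent.P269

open P291Z Set Function Topology Filter

namespace IntP

variable {X Y Z : Type} [TopologicalSpace X] [TopologicalSpace Y] [TopologicalSpace Z]

theorem push_push {f : X → Y} {g : Y → Z} (hf : IsPr f) (hg : IsPr g) (β : BM X) :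
    push g (push f β) = push (g ∘ f) β := LinearMap.ext fun c => by
  rw [push_apply, push_apply, push_apply, cpull_eq hf, cpull_eq hg, cpull_eq (hg.comp hf),
    Hc.pull_pull]

theorem push_of_not {f : X → Y} (hf : ¬IsPr f) (β : BM X) : push f β = 0 :=
  LinearMap.ext fun c => by
    rw [push_apply, cpull, dif_neg hf, LinearMap.zero_apply, map_zero, LinearMap.zero_apply]

end IntP

section int

variable {S Λ R J K ν κ ν₁ κ₁ ν₂ κ₂ : Type} [Fintype S] [Fintype Λ] [Fintype R] [Fintype J]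
  [Fintype K] [Fintype ν] [Fintype κ] [Fintype ν₁] [Fintype κ₁] [Fintype ν₂] [Fintype κ₂]
  {W : Wt S Λ R J} {F : Fam S Λ R J K} {A : Set ((Λ → ℂ) × (J → ℂ))} {m m' : AM Λ R J ν κ}

namespace AM

theorem cls_eq (h : ∀ z, m.vl z ∈ A) : m.cls W A = push (m.evm W h) m.R.fund := dif_pos h

/-- The values of the fields in the frames at `x`. -/
noncomputable def lv (m : AM Λ R J ν κ) (W : Wt S Λ R J) (x z : m.X) : (Λ → ℂ) × (J → ℂ) :=
  (m.l, fun j => m.y j z / (Cv.bz m.L (W.w j)).φ x z)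

theorem isUnit_one_mk {t : R → ℂ} (ht : ∀ r, t r ≠ 0) : IsUnit ((1, t) : (S → ℂ) × (R → ℂ)) :=
  Prod.isUnit_iff.2 ⟨isUnit_one, isUnit_pi_iff.2 ht⟩

theorem lv_eq (x z : m.X) :
    m.lv W x z = W.actT (1, fun r => ((m.L r).φ x z)⁻¹) (m.vl z) :=
  Prod.ext (W.actL_one _).symm (funext fun j => by
    simp [lv, Wt.actT, vl, Cv.bz, Cv.LB.prod_φ, div_eq_mul_inv, mul_comm])

theorem lv_self (x : m.X) : m.lv W x x = m.vl x :=
  Prod.ext rfl (funext fun j => by simp only [lv, vl, Cv.LB.self, div_one])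

theorem isUnit_frame (x z : m.X) :
    IsUnit ((1, fun r => ((m.L r).φ x z)⁻¹) : (S → ℂ) × (R → ℂ)) :=
  isUnit_one_mk fun r => inv_ne_zero ((m.L r).ne x z)

theorem lv_mem (hA : ∀ t, IsUnit t → ∀ z ∈ A, W.actT t z ∈ A) (h : ∀ z, m.vl z ∈ A) (x z : m.X) :
    m.lv W x z ∈ A := lv_eq (W := W) x z ▸ hA _ (isUnit_frame x z) _ (h z)

theorem evm_eq_lv (hA : ∀ t, IsUnit t → ∀ z ∈ A, W.actT t z ∈ A) (h : ∀ z, m.vl z ∈ A)
    (x z : m.X) : m.evm W h z = Quo.mk W.actT ⟨m.lv W x z, lv_mem hA h x z⟩ :=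
  Quot.sound ⟨_, isUnit_frame x z, lv_eq x z⟩

theorem Sec.continuousAt_lv (hm : m.Sec W) (x : m.X) : ContinuousAt (m.lv W x) x :=
  continuousAt_const.prodMk (continuousAt_pi.2 fun j =>
    (Cv.LB.sec_iff.1 ((hm j).1 x)).continuousAt)

theorem continuous_evm (hA : ∀ t, IsUnit t → ∀ z ∈ A, W.actT t z ∈ A) (hm : m.Sec W)
    (h : ∀ z, m.vl z ∈ A) : Continuous (m.evm W h) := continuous_iff_continuousAt.2 fun x => by
  rw [show m.evm W h = _ from funext (evm_eq_lv hA h x)]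
  exact continuous_quot_mk.continuousAt.comp
    (IsInducing.subtypeVal.continuousAt_iff.2 (hm.continuousAt_lv x))

theorem cls_deg : BM.IsDeg 2 (m.cls W A) := by
  by_cases h : ∀ z, m.vl z ∈ A
  · rw [cls_eq h]
    exact BM.isDeg_iff.2 fun j hj c hc =>
      BM.isDeg_iff.1 m.R.fund_deg j hj _ (cpull_deg _ hc)
  · rw [cls, dif_neg h]
    exact BM.isDeg_iff.2 fun _ _ _ _ => rfl

theorem ev_cls [T2Space (W.X A)] [CompactSpace (W.X A)]
    (hA : ∀ t, IsUnit t → ∀ z ∈ A, W.actT t z ∈ A) (hm : m.Sec W) (h : ∀ z, m.vl z ∈ A)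
    {a : Coch (W.X A)} (ha : supp (δ a) = ∅) :
    ev (m.cls W A) a = ev m.R.fund (pull (m.evm W h) a) := by
  rw [cls_eq h, Orb.ev_push (IsPr.of_compact (continuous_evm hA hm h)) _ (Zc_of_compact ha)]

theorem Iso.cls (hA : ∀ t, IsUnit t → ∀ z ∈ A, W.actT t z ∈ A) (h : Iso W univ m m') :
    m'.cls W A = m.cls W A := by
  obtain ⟨e, hl, t, τ, hτ, -, -, ht, h1, h2⟩ := h
  have hu : ∀ x, IsUnit ((τ, fun i => t i x) : (S → ℂ) × (R → ℂ)) := fun x =>
    Prod.isUnit_iff.2 ⟨hτ, isUnit_pi_iff.2 fun i => (ht i).2.1 x⟩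
  have hv : ∀ x, m'.vl (e x) = W.actT (τ, fun i => t i x) (m.vl x) := fun x =>
    Prod.ext h1 (funext fun j => h2 j trivial x)
  have he : IsPr e := IsPr.of_compact hl.cont
  by_cases h : ∀ z, m.vl z ∈ A
  · have h' : ∀ z, m'.vl z ∈ A := e.surjective.forall.2 fun x => hv x ▸ hA _ (hu x) _ (h x)
    have h3 : m'.evm W h' ∘ e = m.evm W h := funext fun x =>
      (Quot.sound ⟨_, hu x, hv x⟩ : m.evm W h x = m'.evm W h' (e x)).symm
    rw [cls_eq h, cls_eq h', ← h3]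
    by_cases hp : IsPr (m'.evm W h')
    · rw [← IntP.push_push he hp, hl.push_fund]
    · rw [IntP.push_of_not hp, IntP.push_of_not fun hq => hp ?_]
      have := hq.comp (IsPr.of_compact (hl.symm e).cont)
      rwa [comp_assoc, e.self_comp_symm, comp_id] at this
  · rw [AM.cls, AM.cls, dif_neg h, dif_neg fun h' => h fun x => ?_]
    obtain ⟨u, hu⟩ := hu x
    have := hA _ u⁻¹.isUnit _ (h' (e x))
    rwa [hv, ← hu, ← W.actT_mul, u.inv_mul, W.actT_one] at this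

/-- pieces: `m₁` is a union of components of the normalisation and the map is locally constant on
the rest (contraction, forgetting points) -/
theorem cls_of_liso [T2Space (W.X A)] (hA : ∀ t, IsUnit t → ∀ z ∈ A, W.actT t z ∈ A)
    {m₁ : AM Λ R J ν₁ κ₁} (hm : m.Sec W) (h : ∀ z, m.vl z ∈ A) (h₁ : ∀ z, m₁.vl z ∈ A)
    {j : m₁.X → m.X} (hj : Cv.LIso m₁.R m.R j) (hi : Injective j)
    (e : ∀ z, m.evm W h (j z) = m₁.evm W h₁ z)
    (hc : ∀ z ∉ range j, ∀ᶠ y in 𝓝 z, m.evm W h y = m.evm W h z) : m.cls W A = m₁.cls W A := by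
  have hU : IsClopen (range j)ᶜ :=
    IsClopen.compl ⟨(isCompact_range hj.cont).isClosed, hj.isOpenMap.isOpen_range⟩
  obtain ⟨R', l⟩ := m.R.exists_sub hU.isOpen
  have : CompactSpace ((range j)ᶜ : Set m.X) := isCompact_iff_compactSpace.1 hU.isClosed.isCompact
  have hp := IsPr.of_compact (continuous_evm hA hm h)
  rw [cls_eq h, cls_eq h₁, hj.fund_add hi l Subtype.val_injective
      (by rw [Subtype.range_coe]; exact isCompl_compl), map_add,
    IntP.push_push (IsPr.of_compact hj.cont) hp, IntP.push_push (IsPr.of_compact l.cont) hp,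
    R'.push_eq_zero (u := m.evm W h ∘ Subtype.val) ((IsLocallyConstant.iff_eventually_eq _).2
      fun z => continuous_subtype_val.continuousAt (hc z.1 z.2)), add_zero]
  exact congrArg (push · _) (funext e)

theorem Split.cls [T2Space (W.X A)] (hA : ∀ t, IsUnit t → ∀ z ∈ A, W.actT t z ∈ A)
    {m₁ : AM Λ R J ν₁ κ₁} {m₂ : AM Λ R J ν₂ κ₂} {φ : ν₁ ⊕ ν₂ ≃ ν} {ψ : κ₁ ⊕ κ₂ ≃ κ}
    {j₁ : m₁.X → m.X} {j₂ : m₂.X → m.X} (h : Split m m₁ m₂ φ ψ j₁ j₂) (hm : m.Sec W)
    (h0 : ∀ z, m.vl z ∈ A) : m.cls W A = m₁.cls W A + m₂.cls W A := by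
  have hp := IsPr.of_compact (continuous_evm hA hm h0)
  have h1 : ∀ z, m₁.vl z ∈ A := fun z => h.one.vl z ▸ h0 _
  have h2 : ∀ z, m₂.vl z ∈ A := fun z => h.two.vl z ▸ h0 _
  rw [cls_eq h0, cls_eq h1, cls_eq h2, h.one.liso.fund_add h.one.inj h.two.liso h.two.inj h.compl,
    map_add, IntP.push_push (IsPr.of_compact h.one.liso.cont) hp,
    IntP.push_push (IsPr.of_compact h.two.liso.cont) hp]
  exact congrArg₂ (· + ·)
    (congrArg (push · _) (funext fun z => congrArg (Quo.mk _) (Subtype.ext (h.one.vl z).symm)))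
    (congrArg (push · _) (funext fun z => congrArg (Quo.mk _) (Subtype.ext (h.two.vl z).symm)))

end AM

end int

end Vale.Agent.P269
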