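import Vale.Agent.P287Q.G.Br.Int
import Vale.Agent.P287Q.G.Br.IntA
import Vale.Agent.P287Q.G.Prj.Tgt
import Vale.Agent.P269.Pt.Bnd

/-!
# The class of an abstract map and the degrees of its line bundles
-/

set_option linter.unusedSectionVars false
set_option linter.style.haveILetI false

namespace Vale.Agent.P269

open P291Z Set Function Topology Filter

section int

variable {S Λ R J K ν κ ν₁ κ₁ ν₂ κ₂ : Type} [Fintype S] [Fintype Λ] [Fintype R] [Fintype J]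
  [Fintype K] [Fintype ν] [Fintype κ] [Fintype ν₁] [Fintype κ₁] [Fintype ν₂] [Fintype κ₂]
  {W : Wt S Λ R J} {F : Fam S Λ R J K} {A : Set ((Λ → ℂ) × (J → ℂ))} {m m' : AM Λ R J ν κ}

namespace AM

theorem Sec.ev_continuousAt_lv (hm : m.Sec W) (x : m.X) :
    ∀ᶠ z in 𝓝 x, ContinuousAt (m.lv W x) z :=
  (eventually_all.2 fun j => (Cv.LB.sec_iff.1 ((hm j).1 x)).eventually).mono fun _ a =>
    continuousAt_const.prodMk (continuousAt_pi.2 fun j => (a j).continuousAt)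

theorem intg_lc [Mono.FP W.actT A] (hm : m.Sec W) {h : ∀ z, m.vl z ∈ A} {u : C(m.X, W.X A)}
    (hu : ∀ z, m.evm W h z = u z) {c : R → ℤ} (hc : Cv.Eff (Cv.bz m.L c)) :
    Loc.intg m.R.fund (H.map u (W.lc A 0 c)) = Cv.deg (Cv.bz m.L c) := by
  have hA : ∀ t, IsUnit t → ∀ z ∈ A, W.actT t z ∈ A := Holo.IsAct.mem
  rw [← Wt.lce_val]
  refine m.R.intg_c1 (Y := Tq.sp W.actT A) (χ := (hm_chT 0 c).ρ)
    (v := fun x z => Holo.Sp.of _ (m.lv W x z) (lv_mem hA h x z))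
    (fun x => (hm.ev_continuousAt_lv x).mono fun z a => IsInducing.subtypeVal.continuousAt_iff.2 a)
    (fun z => (evm_eq_lv hA h z z).symm.trans (hu z))
    (fun x z => ⟨(isUnit_frame x z).unit, Holo.Sp.ext (act := W.actT) ?_, ?_⟩) hc
  · exact (congrArg (W.actT _) (lv_self z)).trans (lv_eq x z).symm
  · simp [chT, Cv.bz, Cv.LB.prod_φ]

variable [DecidableEq R]

theorem Sol.eff_of_ample {θ₀ : R → ℤ} {N : ℕ} (hA : F.Ample θ₀ N) (h : m.Sol F) {c : R → ℤ}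
    (hc : c = N • θ₀ ∨ ∃ i, c = N • θ₀ + Pi.single i 1 ∨ c = N • θ₀ - Pi.single i 1) :
    Cv.Eff (Cv.bz m.L c) := by
  obtain ⟨s, a, b, -⟩ := Cv.exists_gen (L := Cv.bz m.L c) le_rfl (fun x => by
    obtain ⟨α, a, b⟩ := hA.2.2 c hc _ (h.2.2 x)
    refine ⟨∏ j, m.y j ^ α j, (Cpt.mon_mem h.2.1 a).1, ?_⟩
    simpa only [Finset.prod_apply, Pi.pow_apply, vl] using b) finite_empty
  exact ⟨s, a, b⟩

/-- the degrees are determined by the class -/
theorem ev_cls_lc (hF : F.Good) [CompactSpace (F.X F.cone)] (hm : m.Sol F) (χ : R → ℤ) :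
    ev (m.cls F.toWt F.cone) (rep (F.lc F.cone 0 χ)) = (∑ r, χ r * Cv.deg (m.L r) : ℤ) := by
  haveI := hF.fp
  obtain ⟨θ₀, N, hN⟩ := hF.ample
  have hA : ∀ t, IsUnit t → ∀ z ∈ F.cone, F.actT t z ∈ F.cone := Holo.IsAct.mem
  let u : C(m.X, F.X F.cone) := ⟨_, continuous_evm hA hm.2.1 hm.2.2⟩
  let D : (R → ℤ) →+ ℂ := AddMonoidHom.mk'
    (fun c => Loc.intg m.R.fund (H.map u (F.lc F.cone 0 c))) fun a b => by
      rw [← map_add, ← map_add, ← Wt.lc_add, add_zero]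
  have h1 := fun c h => intg_lc hm.2.1 (u := u) (fun _ => rfl) (hm.eff_of_ample (c := c) hN h)
  have h2 : ∀ r, D (Pi.single r 1) = Cv.deg (m.L r) := fun r => by
    have := h1 _ (.inr ⟨r, .inl rfl⟩)
    rw [Cv.bz_add, Cv.deg_mul, Cv.bz_single, zpow_one, Int.cast_add, ← h1 _ (.inl rfl)] at this
    exact add_left_cancel ((map_add D _ _).symm.trans this)
  have h3 := Mono.DgI.rep_cocycle (F.lc F.cone 0 χ)
  refine (ev_cls hA hm.2.1 hm.2.2 h3).trans
    ((Loc.intg_hcls _ (cocycle_pull u.continuous h3)).symm.trans ?_)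
  rw [← H.map_hcls u h3, Mono.DgI.hcls_rep]
  change D χ = _
  conv_lhs => rw [← Finset.univ_sum_single χ, map_sum]
  push_cast
  refine Finset.sum_congr rfl fun r _ => ?_
  rw [← h2, ← zsmul_eq_mul, ← map_zsmul, ← Pi.single_smul, smul_eq_mul, mul_one]

theorem Sol.exists_frame (hF : F.Good) (hm : m.Sol F) (h : ∀ r, Cv.deg (m.L r) = 0) (r : R) :
    ∃ σ ∈ (m.L r).Γ, ∀ z, σ z ≠ 0 := by
  obtain ⟨θ₀, N, hN⟩ := hF.ample
  have h1 : ∀ c, Cv.Eff (Cv.bz m.L c) → ∃ s ∈ (Cv.bz m.L c).Γ, ∀ z, s z ≠ 0 :=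
    fun c ⟨s, a, b⟩ => ⟨s, a, fun z e => by
      have := Cv.card_le_degOn isClopen_univ (fun x _ => a x) b.ge (T := {z}) (by simpa using e)
      simp [Cv.degOn_univ, Cv.deg_bz, h] at this⟩
  obtain ⟨s, a, b⟩ := h1 _ (hm.eff_of_ample hN (.inl rfl))
  obtain ⟨s', a', b'⟩ := h1 _ (hm.eff_of_ample hN (.inr ⟨r, .inl rfl⟩))
  have := Cv.LB.mul_mem a' (Cv.LB.inv_mem a b)
  rw [Cv.bz_add, mul_inv_cancel_comm, Cv.bz_single, zpow_one] at this
  exact ⟨_, this, fun z => mul_ne_zero (b' z) (inv_ne_zero (b z))⟩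

/-- maps of degree zero are locally constant -/
theorem Sol.isLocallyConstant (hF : F.Good) (hm : m.Sol F) (h : ∀ r, Cv.deg (m.L r) = 0) :
    IsLocallyConstant (m.evm F.toWt hm.2.2) := by
  choose σ h1 h2 using hm.exists_frame hF h
  have h3 : ∀ z, IsUnit ((1, fun r => (σ r z)⁻¹) : (S → ℂ) × (R → ℂ)) := fun z =>
    isUnit_one_mk fun r => inv_ne_zero (h2 r z)
  have h4 : ∀ j, m.y j * (∏ r, σ r ^ F.w j r)⁻¹ ∈ (1 : Cv.LB m.R).Γ := fun j => by
    have := Cv.LB.mul_mem (hm.2.1 j).1 (Cv.LB.inv_mem (Cv.LB.prod_mem (T := Finset.univ) fun r _ =>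
      Cv.LB.zpow_mem (h1 r) (h2 r) (F.w j r)) fun z => by
        rw [Finset.prod_apply]
        exact Finset.prod_ne_zero_iff.2 fun r _ => zpow_ne_zero _ (h2 r z))
    rwa [Cv.bz, mul_inv_cancel] at this
  refine (IsLocallyConstant.iff_eventually_eq _).2 fun x =>
    (eventually_all.2 fun j => Cv.ev_const (h4 j) x).mono fun z a => ?_
  refine (Tq.mk_act (h3 z) _ (hF.cone_act (h3 z) (hm.2.2 z))).symm.trans
    (.trans (congrArg _ (Subtype.ext ?_)) (Tq.mk_act (h3 x) _ (hF.cone_act (h3 x) (hm.2.2 x))))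
  exact Prod.ext rfl (funext fun j => by simpa [Wt.actT, vl, mul_comm] using a j)

/-- maps of degree zero are constant -/
theorem cls_eq_zero (hF : F.Good) (hm : m.Sol F) (h : ∀ r, Cv.deg (m.L r) = 0) :
    m.cls F.toWt F.cone = 0 :=
  (cls_eq hm.2.2).trans (m.R.push_eq_zero (hm.isLocallyConstant hF h))

end AM

end int

end Vale.Agent.P269
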