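import Vale.Agent.P287Q.G.Pt.LC
import Vale.Agent.P269.Base.OpenA

/-!
# Fibre coordinates that are functions on the product of projective spaces
-/

set_option linter.unusedSectionVars false

namespace Vale.Agent.P269.LC

open Set Function Topology Filter Cv Base Nrm

variable {ι : Type} [Fintype ι] {M : ι → ℕ} {o : ι}

variable (M) in
/-- the ambient space of the product of projective spaces -/
abbrev PP : Type := ∀ i, Fin (M i) → Fin (M i) → ℂ

/-- a section of `P` near `c₀` -/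
noncomputable def nP (c₀ : V M) (Q : PP M) : V M := fun i => ap (Q i) (c₀ i)

theorem continuous_nP (c₀ : V M) : Continuous (nP c₀) := by
  unfold nP ap
  fun_prop

theorem tendsto_nP {c₀ : V M} (h : ∀ i, c₀ i ≠ 0) : Tendsto (nP c₀) (𝓝 (P c₀)) (𝓝 c₀) :=
  (continuous_nP c₀).tendsto' _ _ (funext fun i => ap_self (h i))

theorem orb_nP {c₀ c : V M} (h : ∀ i, nP c₀ (P c) i ≠ 0) : Base.Orb c (nP c₀ (P c)) :=
  .of_smul h (funext fun i => ap_pr (c i) (c₀ i))

theorem P_orb {c c' : V M} (h : Base.Orb c c') : P c' = P c :=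
  h.elim fun _ e => e.2 ▸ P_smul e.1 c

variable {T E : Type*} [TopologicalSpace T] [NormedAddCommGroup E] [NormedSpace ℂ E]
  [FiniteDimensional ℂ E] {C : T → Set (V M)} {p : T → E} {t₀ : T}

variable (o C p t₀) in
/-- `g` is a fibre coordinate which vanishes along the centres of the chart `σ` -/
structure Coord (σ : E × ℂ → V M) (g : PP M → ℂ) : Prop where
  chart : Chart o C p t₀ σ fun _ => univ
  cont : ∀ᶠ Q in 𝓝 (P (σ (p t₀, 0))), ContinuousAt g Q
  an : AnalyticAt ℂ (fun q => g (P (σ q))) (p t₀, 0)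
  der : deriv (fun w => g (P (σ (p t₀, w)))) 0 ≠ 0
  zero : ∀ᶠ q in 𝓝 (p t₀, 0), g (P (σ q)) = 0 ↔ q.2 = 0
  uniq : ∀ᶠ q : T × PP M in 𝓝 (t₀, P (σ (p t₀, 0))), ∀ c ∈ C q.1, P c = q.2 → g q.2 = 0 →
    Base.Orb (σ (p q.1, 0)) c

theorem exists_coord (h : LocFam o C p t₀) {c₀ : V M} (hc : SmAt o C p t₀ c₀) :
    ∃ σ g, σ (p t₀, 0) = c₀ ∧ Coord o C p t₀ σ g := by
  have hne := h.ne_zero.self_of_nhds _ hc.mem
  have hπ := h.cont.self_of_nhds
  obtain ⟨σ, e0, h0⟩ := hc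
  have hb := h0.isBranch0 (e0 ▸ hne o)
  obtain ⟨l, l1, l2⟩ := Submodule.exists_dual_map_eq_bot_of_notMem (p := ℂ ∙ c₀ o)
    (x := deriv (fun z => σ (p t₀, z)) 0 o) (fun k => (Submodule.mem_span_singleton.1 k).elim
      fun s e => one_ne_zero (of_li_pair hb.imm (s := s) (by rw [one_smul, ← e, e0])))
    inferInstance
  have l3 : l (c₀ o) = 0 := l2.le ⟨_, Submodule.mem_span_singleton_self _, rfl⟩
  obtain ⟨l', l4⟩ := SeparatingDual.exists_ne_zero (R := ℂ) (hne o)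
  let L := LinearMap.toContinuousLinearMap l
  let g₀ : V M → ℂ := fun c => L (c o) / l' (c o)
  have ao : ∀ c : V M, AnalyticAt ℂ (fun c : V M => c o) c := fun c =>
    analyticAt_pi_iff.1 analyticAt_id o
  have a0 : AnalyticAt ℂ g₀ c₀ :=
    ((L.analyticAt _).comp (ao _)).div ((l'.analyticAt _).comp (ao _)) l4
  have n0 := (tendsto_nP hne).eventually (eventually_ne hne)
  have k0 : ∀ᶠ q in 𝓝 (p t₀, 0), g₀ (σ q) = g₀ (nP c₀ (P (σ q))) := by
    refine ((e0 ▸ h0.an.continuousAt.tendsto :).eventually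
      ((continuousAt_P hne).eventually n0)).mono fun q hq => ?_
    obtain ⟨s, hs, e⟩ := orb_nP hq
    rw [e]
    simp only [g₀, Dict.smul_ap, map_smul, smul_eq_mul, mul_div_mul_left _ _ (hs o)]
  have a1 := (a0.comp_of_eq h0.an e0).congr k0
  have z0 : g₀ (nP c₀ (P (σ (p t₀, 0)))) = 0 := by
    rw [← k0.self_of_nhds, e0]
    exact div_eq_zero_iff.2 (.inl l3)
  have d0 : deriv (fun w => g₀ (nP c₀ (P (σ (p t₀, w))))) 0 ≠ 0 := by
    have k := hasDerivAt_pi.1 hb.holo.differentiableAt.hasDerivAt o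
    have k1 : HasDerivAt (fun w => g₀ (σ (p t₀, w))) _ 0 := (L.hasFDerivAt.comp_hasDerivAt 0
      k).fun_div (l'.hasFDerivAt.comp_hasDerivAt 0 k) (by simpa [e0] using l4)
    rw [← EventuallyEq.deriv_eq (f₁ := fun w => g₀ (σ (p t₀, w)))
      (((Continuous.prodMk_right (p t₀)).tendsto 0).eventually k0), k1.deriv]
    simpa [e0, L, l3, l4] using l1
  obtain ⟨κ, k1, k2, -, k3, k4⟩ := h0.recentre hπ a1 z0 d0
  have e1 : σ (p t₀, κ (p t₀) + 0) = c₀ := by rw [k2, add_zero, e0]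
  refine ⟨_, fun Q => g₀ (nP c₀ Q), e1, k4, ?_, a1.comp_of_eq (analyticAt_fst.prod
    ((k1.comp_of_eq analyticAt_fst rfl).add analyticAt_snd)) (by simp [k2]),
    by simpa [k2] using d0, k3, ?_⟩
  · exact e1 ▸ ((tendsto_nP hne).eventually a0.eventually_continuousAt).mono fun Q hQ =>
      hQ.comp (continuous_nP c₀).continuousAt
  obtain ⟨u, hu, v, hv, k5⟩ := mem_nhds_prod_iff.1 ((tendsto_pm hπ 0).eventually k3)
  have k6 := k4.sub v hv
  simp only [e1] at k6 ⊢
  filter_upwards [(continuousAt_fst.tendsto.prodMk_nhds ((tendsto_nP hne).comp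
    continuousAt_snd.tendsto)).eventually k6, continuousAt_fst.eventually (h.cone.and hu),
    continuousAt_snd.eventually n0] with ⟨t, Q⟩ b1 b2 b3 c hc (e : P c = Q) b4
  subst e
  have b5 := orb_nP b3
  obtain ⟨s, z, b6, -, b7⟩ := b1 (b5.elim fun s e => mem_of_eq_of_mem e.2 (b2.1 s e.1 c hc))
  have b8 := Orb.of_smul b3 b7
  obtain rfl : z = 0 := (k5 (mk_mem_prod b2.2 b6)).1 ((congrArg (fun Q => g₀ (nP c₀ Q))
    ((P_orb b8).symm.trans (P_orb b5))).trans b4)
  exact b8.trans b5.symm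

end Vale.Agent.P269.LC
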