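import Vale.Agent.P287Q.G.Br.Fund
import Vale.Agent.P269.Br.CrvA
import Vale.Agent.P269.Br.LCA
import Vale.Agent.P287Q.G.Br.LCB
import Vale.Agent.P269.Orb.Deg

/-!
# Integrals over the fibres of a family of nodal curves are locally constant
-/

set_option linter.unusedSectionVars false

namespace Vale.Agent.P269

open P291Z Set Function Topology Filter

namespace LC

open Cv Base Nrm TopologicalSpace

section loc

variable {X Z : Type} [TopologicalSpace X] [T2Space X] [CompactSpace X] [TopologicalSpace Z]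
  [MetrizableSpace Z]

/-- one smooth point on each component -/
theorem exists_pts (R : RS X) (N : Finset (X × X)) : ∃ (κ : Type) (_ : Fintype κ) (x : κ → X),
    (∀ i, Sm N (x i)) ∧ ∀ z, ∃! i, x i ∈ connectedComponent z := by
  have k := fun U : range (connectedComponent : X → Set X) => U.2.elim fun z e =>
    (Crv.dense_sm R N).exists_mem_open (U := U.1) (e ▸ (exists_comp (R := R) z).1.isOpen)
      ⟨z, e ▸ mem_connectedComponent⟩
  choose x h1 h2 using k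
  refine ⟨_, ((isEmpty_or_nonempty X).elim (fun _ => finite_range _)
    fun ⟨z⟩ => (exists_comp (R := R) z).2).fintype, x, h1, fun z => ⟨⟨_, z, rfl⟩, h2 ⟨_, z, rfl⟩, ?_⟩⟩
  rintro ⟨_, y, rfl⟩ h
  exact Subtype.ext ((connectedComponent_eq (h2 ⟨_, y, rfl⟩)).trans (connectedComponent_eq h).symm)

/-- near the image of the curve a cocycle of degree two is a combination of point classes -/
theorem exists_loc (R : RS X) {G : X → Z} (hG : Continuous G) {S : Set X} (hS : S.Finite)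
    (hi : ∀ x y, G x = G y → x = y ∨ y ∈ S ∧ x ∈ S) {a : Coch Z} (hd : IsDeg 2 a)
    (ha : ∀ z, δ a ∈ P291Z.Van (G z)) {κ : Type} [Fintype κ] {x : κ → X}
    (hx : ∀ z, ∃! i, x i ∈ connectedComponent z) {θ : κ → Coch Z} (θd : ∀ i, IsDeg 2 (θ i))
    (θc : ∀ i z, δ (θ i) ∈ P291Z.Van (G z)) (θs : ∀ i, supp (pull G (θ i)) ⊆ {x i})
    (θe : ∀ i, ev R.fund (pull G (θ i)) = 1) : ∃ c, ∀ z, a - ∑ i,
      ev R.fund (pull G a * ind (connectedComponent (x i))) • θ i - δ c ∈ P291Z.Van (G z) := by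
  classical
  have k : ∀ {b : Coch Z}, (∀ z, δ b ∈ P291Z.Van (G z)) → supp (δ (pull G b)) = ∅ := fun h =>
    supp_eq_empty.2 fun z => δ_pull G _ ▸ Van.pull hG.continuousAt (h z)
  have k1 : ∀ (l : κ → ℂ) z, δ (a - ∑ i, l i • θ i) ∈ P291Z.Van (G z) := fun l z => by
    simp only [map_sub, map_sum, map_smul]
    exact sub_mem (ha z) (sum_mem fun i _ => Submodule.smul_mem _ _ (θc i z))
  have k2 := fun l : κ → ℂ => hd.sub (IsDeg.sum (s := Finset.univ) fun i _ => (θd i).smul (l i))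
  refine taut hG hS hi (k2 _) (k1 _) (R.hcls_eq_zero (k (k1 _)) ((k2 _).pull G) fun z => ?_)
  have hU := (exists_comp (R := R) z).1
  have k3 : IsLocallyConstant ((connectedComponent z).indicator 1 : X → ℂ) :=
    (LocallyConstant.charFn ℂ hU).isLocallyConstant
  obtain ⟨i, i1, i2⟩ := hx z
  simp only [map_sub, map_sum, map_smul]
  rw [ind_eq_fn, ← Orb.ev_cap (Orb.cocycle_fn.2 k3) (Zc_of_compact (by
      simpa only [map_sub, map_sum, map_smul] using k (k1 _))), ev_lin _ (k ha) fun i => k (θc i),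
    Orb.ev_cap (Orb.cocycle_fn.2 k3) (Zc_of_compact (k ha)), Fintype.sum_eq_single i
      fun j hj => by rw [Orb.ev_cap_fn k3 _ (k (θc j)) (θs j),
        indicator_of_notMem (mt (i2 j) hj), zero_mul, mul_zero],
    Orb.ev_cap_fn k3 _ (k (θc i)) (θs i), θe, indicator_of_mem i1, ← connectedComponent_eq i1,
    ind_eq_fn]
  simp

end loc

variable {ι : Type} [Fintype ι] {M : ι → ℕ} {o : ι} {T E : Type*} [TopologicalSpace T]
  [NormedAddCommGroup E] [NormedSpace ℂ E] [FiniteDimensional ℂ E] {C : T → Set (V M)} {p : T → E}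
  {t₀ : T} {σ : E × ℂ → V M} {g : PP M → ℂ}

/-- the Thom cocycle of a local section of the family -/
theorem Coord.exists_theta (hσ : Coord o C p t₀ σ g) (h : LocFam o C p t₀) :
    ∃ θ : Coch (PP M), IsDeg 2 θ ∧ (∀ᶠ Q in 𝓝 (P (σ (p t₀, 0))),
      pull (fun Q (_ : Fin 1) => g Q) (tau 1) - θ ∈ P291Z.Van Q) ∧ ∀ᶠ t in 𝓝 t₀,
      (∀ c ∈ C t, δ θ ∈ P291Z.Van (P c) ∧ (P c ∈ supp θ → Base.Orb (σ (p t, 0)) c)) ∧
      ∀ (X : Type) [TopologicalSpace X] [T2Space X] [CompactSpace X] (R : RS X)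
        (N : Finset (X × X)) (A : ι → LB R) (π : X → V M), Par o (C t) N A π →
        ev R.fund (pull (fun z => P (π z)) θ) = 1 := by
  have hπ := h.cont.self_of_nhds
  have hs : SmAt o C p t₀ _ := ⟨σ, rfl, hσ.chart⟩
  obtain ⟨u, hu, v, hv, k1⟩ := mem_nhds_prod_iff.1 hσ.uniq
  obtain ⟨W, w1, w2, w3⟩ := exists_mem_nhds_isClosed_subset (inter_mem hv hσ.cont)
  let τ := pull (fun Q (_ : Fin 1) => g Q) (tau 1)
  have c1 : ∀ Q ∈ W, ContinuousAt (fun Q (_ : Fin 1) => g Q) Q := fun Q hQ =>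
    continuousAt_pi.2 fun _ => (w3 hQ).2
  have c2 : ∀ Q ∈ supp (cut W τ), Q ∈ W ∧ g Q = 0 := fun Q hQ => by
    have k := supp_cut W τ hQ
    rw [w2.closure_eq] at k
    exact ⟨k.1, congrFun (supp_tau 1 (by_contra fun k' => Van.pull (c1 Q k.1) k' k.2)) 0⟩
  have t0 : Tendsto (fun t : T => (t, (0 : ℂ))) (𝓝 t₀) (𝓝 (t₀, 0)) :=
    (Continuous.prodMk_left (0 : ℂ)).tendsto t₀
  have t1 : Tendsto (fun t => (p t, (0 : ℂ))) (𝓝 t₀) (𝓝 (p t₀, 0)) :=
    hπ.prodMk continuousAt_const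
  have t2 := hσ.chart.an.continuousAt.tendsto.comp t1
  refine ⟨cut W τ, ((tau_deg 1).pull _).cut W,
    (eventually_mem_nhds_iff.2 w1).mono fun Q hQ => cut_in hQ τ, ?_⟩
  filter_upwards [hu, ((continuousAt_P (h.ne_zero.self_of_nhds _ hs.mem)).tendsto.comp
    t2).eventually (eventually_mem_nhds_iff.2 w1), t0.eventually (hσ.chart.isBranch h),
    (tendsto_id.prodMk_nhds t2).eventually (hs.eventually h), h.eventually,
    t1.eventually (hσ.an.eventually_analyticAt.and (hσ.zero.and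
      (eventually_deriv_ne hσ.an hσ.der)))] with t b1 b2 b3 b4 b5 b6
  simp only [zero_add, comp_apply, id] at b2 b3 b4 b6
  have b7 : ∀ c ∈ C t, δ (cut W τ) ∈ P291Z.Van (P c) ∧
      (P c ∈ supp (cut W τ) → Base.Orb (σ (p t, 0)) c) := fun c hc => by
    have k := fun k => k1 (mk_mem_prod b1 (w3 (c2 (P c) k).1).1) c hc rfl (c2 _ k).2
    refine ⟨by_contra fun k' => k' ?_, k⟩
    have k2 := sub_mem (δ_pull _ _ ▸ Van.pull (c1 _ (mem_of_mem_nhds b2))
      (supp_eq_empty.1 (tau_cocycle 1) _)) (Van.δ (cut_in b2 τ))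
    rwa [map_sub, sub_sub_cancel, ← P_orb (k (supp_δ _ (not_not.1 k')))] at k2
  refine ⟨b7, fun X _ _ _ R N A π hp => ?_⟩
  obtain ⟨x, s, φ, -, f2, f3, f4, f5, f6⟩ := hp.factor_branch b3
  have f7 : σ (p t, 0) = s 0 • π x := by rw [f6.self_of_nhds, f4, br_zero]
  have f8 : Sm N x := not_not.1 fun k => (b4 b3.mem.self_of_nhds).not_isNode b5
    (f7 ▸ (hp.isNode_iff f2).2 k)
  have f9 : Tendsto φ (𝓝 0) (𝓝 0) := by simpa only [f4] using f3.continuousAt.tendsto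
  have g0 : R.i x (φ 0) = x := by rw [f4, R.i_zero]
  have g1 : φ =ᶠ[𝓝 0] fun w => R.e (R.i x (φ 0)) (R.i x (φ w)) :=
    (f9.eventually (R.tgt_nhds x)).mono fun w hw => by rw [g0]; exact (R.e_i hw).symm
  have g2 : ContinuousAt (fun w => R.i x (φ w)) 0 :=
    (R.contAt_i (R.zero_mem x)).comp_of_eq f3.continuousAt f4
  have g3 : ∀ᶠ w in 𝓝 0, P (π (R.i x (φ w))) = P (σ (p t, w)) := by
    filter_upwards [f6, b3.mem] with w k2 k3
    rw [Cv.br_eq, smul_smul] at k2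
    exact (P_orb (.of_smul (hp.ne_zero _ k3) k2)).symm
  have g4 : Tendsto (fun z : Fin 1 → ℂ => z 0) (𝓝 0) (𝓝 0) := (continuous_apply 0).tendsto' _ _ rfl
  refine (one_mul _).symm.trans ((R.val_of (ψ := fun w => R.i x (φ w)) g2 (f3.congr g1)
    (g1.deriv_eq ▸ f5)).2 _ _ (supp_eq_empty.2 fun z => δ_pull _ _ ▸ Van.pull
      (cont_P hp).continuousAt (b7 _ (hp.mem z)).1) (fun z hz => ?_) ?_)
  · obtain ⟨s', -, e⟩ := (b7 _ (hp.mem z)).2 (supp_pull (cont_P hp) _ hz)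
    rw [f7, smul_smul] at e
    exact (Crv.eq_of_sm f8 (hp.inj x z _ e)).trans g0.symm
  · have k := Orb.locCo_analytic (m := 1) (f := fun w => g (P (σ (p t, w))))
      (b6.1.comp_of_eq (analyticAt_const.prod analyticAt_id) rfl)
      ((b6.1.comp_of_eq (analyticAt_const.prod analyticAt_id)
        rfl).analyticOrderAt_eq_one_of_zero_deriv_ne_zero (b6.2.1.2 trivial) b6.2.2)
    have k2 : Orb.LocCo (pull (fun z : Fin 1 → ℂ => P (σ (p t, z 0))) τ) 1 := by
      rw [pull_pull]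
      exact Nat.cast_one (R := ℂ) ▸ k
    rw [pull_pull]
    exact (k2.of_van ((continuousAt_P (b5.ne_zero.self_of_nhds _ b3.mem.self_of_nhds)).comp_of_eq
      (b3.holo.continuousAt.comp_of_eq (continuous_apply 0).continuousAt rfl) rfl)
      (sub_mem_comm_iff.1 (cut_in b2 τ))).pull_congr (g4.eventually g3)

theorem cont_inv {X Y : Type} [TopologicalSpace X] [T2Space X] [CompactSpace X]
    [TopologicalSpace Y] {R : RS X} {N : Finset (X × X)} {A : ι → LB R} {π : X → V M}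
    {C : Set (V M)} (h : Par o C N A π) {f : V M → Y} (hf : ContinuousOn f C)
    (hs : ∀ c ∈ C, ∀ s : ι → ℂ, (∀ i, s i ≠ 0) → f (s • c) = f c) :
    Continuous fun z => f (π z) := continuous_iff_continuousAt.2 fun x =>
  ((hf _ (h.mem x)).tendsto.comp (tendsto_nhdsWithin_iff.2 ⟨tends_br h.sec x, .of_forall
    fun _ => h.br_mem _ _⟩)).congr' ((R.src_nhds x).mono fun y hy =>
      ((congrArg f (br_e hy)).trans (hs _ (h.br_mem _ _) _ fun i => (A i).ne x y)).symm)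

/-- **local form**: near the central curve a cocycle of degree two is a combination of the Thom
cocycles of local sections -/
theorem exists_comb {Y : Type} [TopologicalSpace Y] [Nice Y] (h : LocFam o C p t₀)
    {f : T → V M → Y} (hf : ∀ c ∈ C t₀, ContinuousWithinAt (uncurry f) {q | q.2 ∈ C q.1} (t₀, c))
    (hs : ∀ᶠ t in 𝓝 t₀, ∀ c ∈ C t, ∀ s : ι → ℂ, (∀ i, s i ≠ 0) → f t (s • c) = f t c)
    {a : Coch Y} (ha : supp (δ a) = ∅) (hd : IsDeg 2 a) {X₀ : Type} [TopologicalSpace X₀]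
    [T2Space X₀] [CompactSpace X₀] {R₀ : RS X₀} {N₀ : Finset (X₀ × X₀)} {A₀ : ι → LB R₀}
    {π₀ : X₀ → V M} (h₀ : Par o (C t₀) N₀ A₀ π₀) {κ : Type} [Fintype κ] {x : κ → X₀}
    (x1 : ∀ i, Sm N₀ (x i)) (x2 : ∀ z, ∃! i, x i ∈ connectedComponent z) {θ : κ → Coch (PP M)}
    (θd : ∀ i, IsDeg 2 (θ i)) (θc : ∀ i, ∀ c ∈ C t₀, δ (θ i) ∈ P291Z.Van (P c) ∧
      (P c ∈ supp (θ i) → Base.Orb (π₀ (x i)) c))
    (θe : ∀ i, ev R₀.fund (pull (fun z => P (π₀ z)) (θ i)) = 1) :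
    ∃ b : Coch (PP M × Y), ∀ᶠ t in 𝓝 t₀, ∀ c ∈ C t, pull Prod.snd a - ∑ i, ev R₀.fund
      (pull (fun z => f t₀ (π₀ z)) a * ind (connectedComponent (x i))) • pull Prod.fst (θ i) -
        δ b ∈ P291Z.Van (P c, f t c) := by
  have h1 := hs.self_of_nhds
  obtain ⟨b, hb⟩ := exists_loc R₀ (G := fun z => (P (π₀ z), f t₀ (π₀ z))) ((cont_P h₀).prodMk
    (cont_inv h₀ (fun c hc => (hf c hc).comp (f := Prod.mk t₀) (Continuous.prodMk_right
      t₀).continuousWithinAt fun _ k => k) h1)) (Crv.finite_not_sm N₀) (fun y z e => by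
      obtain ⟨s, -, k⟩ := exists_of_P (h₀.ne z) (congrArg Prod.fst e).symm
      rcases h₀.inj y z s k with k | k | k
      exacts [.inl k, .inr ⟨fun m => (m _ k).2 rfl, fun m => (m _ k).1 rfl⟩,
        .inr ⟨fun m => (m _ k).1 rfl, fun m => (m _ k).2 rfl⟩]) (hd.pull Prod.snd)
    (fun z => δ_pull _ a ▸ Van.pull continuousAt_snd (supp_eq_empty.1 ha _)) x2
    (fun i => (θd i).pull Prod.fst)
    (fun i z => δ_pull _ (θ i) ▸ Van.pull continuousAt_fst (θc i _ (h₀.mem z)).1) (fun i z hz => by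
      rw [pull_pull] at hz
      obtain ⟨s, -, e⟩ := (θc i _ (h₀.mem z)).2 (supp_pull (cont_P h₀) _ hz)
      exact Crv.eq_of_sm (x1 i) (h₀.inj _ _ s e)) fun i => (pull_pull _ _ _).symm ▸ θe i
  rw [pull_pull] at hb
  refine ⟨b, h.compact (p := fun q => _ ∈ P291Z.Van (P q.2, f q.1 q.2)) (fun c hc => ?_)
    (hs.mono fun t ht s k c hc e => by rwa [P_smul k, ht c hc s k] at e)⟩
  refine eventually_nhdsWithin_iff.1 ((((continuousAt_P (h₀.ne_zero c hc)).comp
    continuousAt_snd).continuousWithinAt.prodMk (hf c hc)).eventually (eventually_van ?_))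
  obtain ⟨z, s, k, rfl⟩ := (h₀.img c).1 hc
  simp only [comp_apply, uncurry, P_smul k, h1 _ (h₀.mem z) s k]
  exact hb z

end LC

section lc

open Cv Base

variable {T E Y : Type} [TopologicalSpace T] [NormedAddCommGroup E] [NormedSpace ℂ E]
  [FiniteDimensional ℂ E] [TopologicalSpace Y] [Nice Y] {ι : Type} [Fintype ι] {M : ι → ℕ} {o : ι}
  {C : T → Set (V M)} {p : T → E} {t₀ : T}

theorem LC.ev_const (h : LocFam o C p t₀) {f : T → V M → Y}
    (hf : ∀ c ∈ C t₀, ContinuousWithinAt (uncurry f) {q | q.2 ∈ C q.1} (t₀, c))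
    (hf' : ∀ᶠ t in 𝓝 t₀, ContinuousOn (f t) (C t) ∧
      ∀ c ∈ C t, ∀ s : ι → ℂ, (∀ i, s i ≠ 0) → f t (s • c) = f t c)
    {a : Coch Y} (ha : supp (δ a) = ∅) (hd : IsDeg 2 a) {X₀ : Type} [TopologicalSpace X₀]
    [T2Space X₀] [CompactSpace X₀] {R₀ : RS X₀} {N₀ : Finset (X₀ × X₀)} {A₀ : ι → LB R₀}
    {π₀ : X₀ → V M} (h₀ : Par o (C t₀) N₀ A₀ π₀) :
    ∀ᶠ t in 𝓝 t₀, ∀ (X : Type) [TopologicalSpace X] [T2Space X] [CompactSpace X] (R : RS X)
      (N : Finset (X × X)) (A : ι → LB R) (π : X → V M), Par o (C t) N A π →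
      ev R.fund (pull (fun z => f t (π z)) a) = ev R₀.fund (pull (fun z => f t₀ (π₀ z)) a) := by
  obtain ⟨κ, _, x, x1, x2⟩ := LC.exists_pts R₀ N₀
  choose σ g s1 s2 using fun i => LC.exists_coord h (h.smAt (h₀.mem (x i)) fun k =>
    (h₀.isNode_iff fun _ => one_ne_zero).1 ((one_smul (ι → ℂ) (π₀ (x i))).symm ▸ k) (x1 i))
  choose θ θd θ1 θ2 using fun i => (s2 i).exists_theta h
  obtain ⟨b, hb⟩ := LC.exists_comb h hf (hf'.mono fun _ k => k.2) ha hd h₀ x1 x2 θd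
    (fun i => s1 i ▸ (θ2 i).self_of_nhds.1) fun i => (θ2 i).self_of_nhds.2 _ _ _ _ _ h₀
  suffices k : ∃ l, ∀ᶠ t in 𝓝 t₀, ∀ (X : Type) [TopologicalSpace X] [T2Space X] [CompactSpace X]
      (R : RS X) (N : Finset (X × X)) (A : ι → LB R) (π : X → V M), Par o (C t) N A π →
      ev R.fund (pull (fun z => f t (π z)) a) = l from k.elim fun l k => k.mono
    fun t ht X _ _ _ R N A π hp => (ht X R N A π hp).trans (k.self_of_nhds _ _ _ _ _ h₀).symm
  refine ⟨∑ i, ev R₀.fund (pull (fun z => f t₀ (π₀ z)) a * ind (connectedComponent (x i))) * 1,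
    (hb.and (hf'.and (eventually_all.2 θ2))).mono fun t ht X _ _ _ R N A π hp => ?_⟩
  have c1 := LC.cont_inv hp ht.2.1.1 ht.2.1.2
  have k := LC.ev_eq_zero R.fund (c := pull _ b) fun z => by
    have := Van.pull ((LC.cont_P hp).prodMk c1).continuousAt (ht.1 _ (hp.mem z))
    rwa [map_sub, ← δ_pull] at this
  simp only [map_sub, map_sum, map_smul, pull_pull] at k
  rw [LC.ev_lin _ (δ_pull _ a ▸ supp_pull_eq_empty c1 ha) fun i => supp_eq_empty.2 fun z =>
    δ_pull _ (θ i) ▸ Van.pull (LC.cont_P hp).continuousAt ((ht.2.2 i).1 _ (hp.mem z)).1] at k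
  exact (sub_eq_zero.1 k).trans (Finset.sum_congr rfl fun i _ =>
    congrArg _ ((ht.2.2 i).2 X R N A π hp))

end lc

end Vale.Agent.P269
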